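import Vale.Agent.P269.G2.XSpec

/-!
# [G2, Yn] the small phase space, at most `N0` primitive insertions
-/

set_option autoImplicit false

namespace Vale.Agent.P269.G2.H984

open Vale.Agent.P269.CI Vale.Agent.P269.G2
open Vale.Agent.P269.G1 (RR ser cst lamc Eu lam AA cq exists_poly)
open Vale.Agent.P269.G1.H984 (sum_lin derL derL_apply a_poly2)
open Vale.Agent.P269.G2.H333 (ev0 isDer_DD)
open Polynomial (aeval)

variable {X : CompleteIntersection} {F : ℕ → ℕ → List (Ins X) → ℂ}

theorem dP_natCast_mul (w : List X.Prim) (n : ℕ) (f : RF X) :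
    dP w ((n : RF X) * f) = (n : RF X) * dP w f := by
  rw [← nsmul_eq_mul, ← nsmul_eq_mul]
  induction n with
  | zero =>
    rw [zero_smul, zero_smul]
    exact G2.H333.dl_zero (fun v => isDer_DD (A := PowerSeries ℂ) (Sum.inr v : Ix X)) w
  | succ n ih =>
    rw [succ_nsmul, succ_nsmul, ← ih]
    exact G2.H333.dl_add (fun v => isDer_DD (A := PowerSeries ℂ) (Sum.inr v : Ix X)) w _ _

theorem natCast_cancel {R : Type*} [CommRing R] [Algebra ℚ R] (n : ℕ) (hn : n ≠ 0) (f : R)
    (h : (n : R) * f = 0) : f = 0 := by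
  have h1 : (n : R) = algebraMap ℚ R n := (map_natCast (algebraMap ℚ R) n).symm
  have h2 : algebraMap ℚ R ((n : ℚ)⁻¹) * ((n : R) * f) = 0 := by rw [h, mul_zero]
  rw [← mul_assoc, h1, ← map_mul, inv_mul_cancel₀ (by exact_mod_cast hn), map_one, one_mul] at h2
  exact h2

section

variable (hF : IsGW X F) (he : Even X.dim)

/-- the functions `a_n` -/
noncomputable def aM (n : ℕ) : RM X := (frob hF he).der (EM hF he ^ n) ((frob hF he).de 2)

theorem aM_key (h1 : IsGenusOneFull F) (hX : 3 ≤ X.dim) (n : ℕ) :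
    ((n + 1 : ℕ) : RM X) * aM hF he n = ((2 : ℕ) : RM X) * (frob hF he).de (n + 1) := by
  have h := (frob hF he).key (frob_getzler hF he h1) (frob_de_one hF he hX) (frob_om_one hF he) n
  push_cast
  exact h

theorem aM_closure (h1 : IsGenusOneFull F) (hX : 3 ≤ X.dim) (m n : ℕ) :
    ∑ b, (EM hF he ^ m : AM hF he) b * pd b (aM hF he n) =
      (n : RM X) * aM hF he (m + n - 1) :=
  (frob hF he).closure (frob_getzler hF he h1) (frob_de_one hF he hX) (frob_om_one hF he) m n

/-- `a_n` and the constraints -/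
theorem aM_vir (h1 : IsGenusOneFull F) (hX : 3 ≤ X.dim) (n : ℕ) :
    ((n + 1 : ℕ) : RF X) * phi X (aM hF he n) +
      ((2 : ℕ) : RF X) * phi X (sr (E0 X) (fun d L => virasoro X F (n + 1) 1 d L)) = 0 := by
  rw [vir_small hF he h1 n, map_neg, mul_neg, ← map_natCast (phi X), ← map_mul,
    aM_key hF he h1 hX, map_mul, map_natCast]
  ring

theorem dP_vir (h1 : IsGenusOneFull F) (hX : 3 ≤ X.dim) (n : ℕ) (w : List X.Prim) :
    ((n + 1 : ℕ) : RF X) * dP w (phi X (aM hF he n)) +
      ((2 : ℕ) : RF X) * dP w (phi X (sr (E0 X) (fun d L => virasoro X F (n + 1) 1 d L))) = 0 := by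
  have h := congrArg (dP w) (aM_vir hF he h1 hX n)
  have h2 : dP w (0 : RF X) = 0 :=
    G2.H333.dl_zero (fun v => isDer_DD (A := PowerSeries ℂ) (Sum.inr v : Ix X)) w
  rw [h2] at h
  rw [← h, ← dP_natCast_mul, ← dP_natCast_mul]
  exact (G2.H333.dl_add (fun v => isDer_DD (A := PowerSeries ℂ) (Sum.inr v : Ix X)) w _ _).symm

theorem ser_zero : ser (X := X) (fun _ _ => (0 : ℂ)) = 0 := by
  funext α
  change ((∏ i, (α i).factorial : ℕ) : ℚ)⁻¹ • (PowerSeries.mk fun _ => (0 : ℂ)) = 0
  have : (PowerSeries.mk fun _ => (0 : ℂ)) = 0 := by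
    ext; simp
  rw [this, smul_zero]

/-- `a_n` at the zeros of the primitive coordinates -/
theorem ev0_aM (h1 : IsGenusOneFull F) (hX : 3 ≤ X.dim)
    (h0 : ∀ k d (L : List (Fin (X.dim + 1))), virasoro X F (k + 1) 1 d (L.map (hpow X)) = 0)
    (n : ℕ) : ev0 (phi X (aM hF he n)) = 0 := by
  have h := congrArg ev0 (aM_vir hF he h1 hX n)
  rw [map_add, map_mul, map_mul, map_natCast, map_natCast, map_zero,
    ev0_phi_sr _ (symF_vir (E0 X) hF he n)] at h
  have h2 : ser (X := X) (fun d L => virasoro X F (n + 1) 1 d L) = 0 := by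
    rw [← ser_zero]
    unfold G1.ser
    congr 1
    funext L
    congr 1
    funext d
    exact h0 n d L
  rw [h2, mul_zero, add_zero] at h
  exact natCast_cancel (n + 1) (Nat.succ_ne_zero n) _ h

/-- the derivatives of `a_n` at the origin -/
theorem origin_aM (h1 : IsGenusOneFull F) (hX : 3 ≤ X.dim) (n : ℕ) (w : List X.Prim)
    (h : ∀ d, virasoro X F (n + 1) 1 d (w.map fun v => (Sum.inr v, 0)) = 0) :
    MvPowerSeries.constantCoeff (dP w (phi X (aM hF he n))) = 0 := by
  have h2 := congrArg MvPowerSeries.constantCoeff (dP_vir hF he h1 hX n w)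
  rw [map_add, map_mul, map_mul, map_natCast, map_natCast, map_zero,
    origin_sr _ (symF_vir (E0 X) hF he n)] at h2
  have h3 : (PowerSeries.mk fun d =>
      virasoro X F (n + 1) 1 d (w.map fun v => (Sum.inr v, 0))) = 0 := by
    ext d
    rw [PowerSeries.coeff_mk, h d, map_zero]
  rw [h3, mul_zero, add_zero] at h2
  exact natCast_cancel (n + 1) (Nat.succ_ne_zero n) _ h2

end

/-- the constraints on the full small phase space with at most `N0` primitive insertions follow
from the numbers at the origin with purely primitive insertions -/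
theorem virasoro_small_of (hF : IsGW X F) (he : Even X.dim) (h1 : IsGenusOneFull F)
    (hX : 3 ≤ X.dim) (hm : 2 ≤ excess X) (hi : 2 ≤ index X)
    (h0 : ∀ k d (L : List (Fin (X.dim + 1))), virasoro X F (k + 1) 1 d (L.map (hpow X)) = 0)
    (N0 : ℕ) (h3 : ∀ w : List X.Prim, w ≠ [] → w.length ≤ N0 → ∀ p d : ℕ, 1 ≤ p →
      p + 1 ≤ excess X → virasoro X F (p + 1) 1 d (w.map fun v => (Sum.inr v, 0)) = 0)
    (k d : ℕ) (L : List (Ix X)) (hL : (L.countP fun a => a.isRight) ≤ N0) :
    virasoro X F (k + 1) 1 d (L.map fun a => (a, 0)) = 0 := by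
  have h1' := h1.toOne
  obtain ⟨P, hmon, hdeg, hPE, hP0⟩ := exists_poly hF h1' hi
  have main : ∀ (w : List X.Prim), w.length ≤ N0 → ∀ n,
      ev0 (dP w (phi X (aM hF he n))) = 0 := by
    refine top_le hF h1' hm hi P hmon hdeg hPE hP0 N0
      (fun m b => phi X ((EM hF he ^ m : AM hF he) b)) (fun n => phi X (aM hF he n))
      (fun m i => ev0_pow_inl hF he h1' m i) (fun m b => ev0_pow_inr hF he h1' m b)
      (fun m v b => ev0_pd_pow hF he h1' m v b) ?_ ((chi hF he).map (phi X)) ?_ ?_ ?_ ?_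
    · intro m n
      have h := congrArg (phi X) (aM_closure hF he h1 hX m n)
      rw [map_sum, map_mul, map_natCast] at h
      rw [← h]
      refine Finset.sum_congr rfl fun b _ => ?_
      rw [map_mul, phi_pd]
    · intro j
      rw [← sum_map_coeff]
      have h := congrArg (phi X) (a_poly2 (frob hF he) (frob_getzler hF he h1)
        (frob_de_one hF he hX) (frob_om_one hF he) (chi hF he) (aeval_chi hF he)
        (chi_psi hF he) (chi_phi hF he) j)
      rw [Polynomial.sum_def, map_sum, map_zero] at h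
      rw [← h]
      refine Finset.sum_congr rfl fun n _ => ?_
      rw [map_mul, map_mul, map_natCast]
      rfl
    · intro v
      exact chi_ev0 hF he h1' (by omega) P hmon hdeg hPE v
    · exact ev0_aM hF he h1 hX h0
    · intro w hw0 hwN p hp
      rcases Nat.eq_zero_or_pos p with hp0 | hp0
      · subst hp0
        have h2 : aM hF he 0 = 0 := by
          have h5 := aM_key hF he h1 hX 0
          rw [zero_add, frob_de_one hF he hX, mul_zero] at h5
          exact natCast_cancel 1 one_ne_zero _ h5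
        rw [h2, map_zero]
        have h4 : dP w (0 : RF X) = 0 :=
          G2.H333.dl_zero (fun v => isDer_DD (A := PowerSeries ℂ) (Sum.inr v : Ix X)) w
        rw [h4, map_zero]
      · exact origin_aM hF he h1 hX p w fun d => h3 w hw0 hwN p d hp0 hp
  refine list_zero (fun d L => virasoro X F (k + 1) 1 d L) (symF_vir (E0 X) hF he k) N0 ?_ d L hL
  intro w hw
  have h := congrArg ev0 (dP_vir hF he h1 hX k w)
  rw [map_add, map_mul, map_mul, map_natCast, map_natCast, map_zero, main w hw k, mul_zero,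
    zero_add] at h
  exact natCast_cancel 2 two_ne_zero _ h

/-- **[Yn]** -/
theorem virasoro_small_le (hF : IsGW X F) (he : Even X.dim) (h1 : IsGenusOneFull F)
    (hX : 3 ≤ X.dim) (hm : 2 ≤ excess X) (hi : 2 ≤ index X)
    (h0 : ∀ k d (L : List (Fin (X.dim + 1))), virasoro X F (k + 1) 1 d (L.map (hpow X)) = 0)
    (N0 : ℕ) (hN : ∀ N p d : ℕ, 1 ≤ N → N ≤ N0 → 1 ≤ p → p + 1 ≤ excess X →
      (3 ≤ excess X → N % 2 = 0) → 2 * (index X * d) ≠ 2 * (p : ℤ) + N * ((X.dim : ℤ) - 2))
    (k d : ℕ) (L : List (Ix X)) (hL : (L.countP fun a => a.isRight) ≤ N0) :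
    virasoro X F (k + 1) 1 d (L.map fun a => (a, 0)) = 0 := by
  refine virasoro_small_of hF he h1 hX hm hi h0 N0 (fun w hw0 hwN p d hp0 hp => ?_) k d L hL
  by_cases hodd : 3 ≤ excess X ∧ w.length % 2 = 1
  · exact vir_odd h1 hodd.1 p d w hodd.2
  · refine vir_weight hF p d w ?_
    exact hN w.length p d (List.length_pos_iff.2 hw0) hwN hp0 hp fun h3 => by
      by_contra hcon
      exact hodd ⟨h3, by omega⟩

end Vale.Agent.P269.G2.H984
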