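import Vale.Agent.P269.G2.H984.Top

/-!
# [G2] only `L_1`: the induction on the number of primitive insertions
-/

set_option autoImplicit false

namespace Vale.Agent.P269.G2.H984

open Vale.Agent.P269.CI Vale.Agent.P269.G1 Vale.Agent.P269.G1.H984 Vale.Agent.P269.G2.H333

variable {X : CompleteIntersection} {F : ℕ → ℕ → List (Ins X) → ℂ}

theorem dP_nat (w : List X.Prim) (n : ℕ) (f : RF X) :
    dP w ((n : RF X) * f) = (n : RF X) * dP w f := by
  rw [← nsmul_eq_mul, ← nsmul_eq_mul]
  induction n with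
  | zero =>
    rw [zero_smul, zero_smul]
    exact dl_zero (fun v => isDer_DD (A := PowerSeries ℂ) (Sum.inr v : Ix X)) w
  | succ n ih =>
    rw [succ_nsmul, succ_nsmul, ← ih]
    exact dl_add (fun v => isDer_DD (A := PowerSeries ℂ) (Sum.inr v : Ix X)) w _ _

variable (hF : IsGW X F) (h1 : IsGenusOne F)

/-- a function of the ambient coordinates whose derivatives along the powers of the Euler field
are multiples of it vanishes if it vanishes at the origin -/
theorem one_zero (hi : index X ≠ 0) (f : RR X) (g : ℕ → RR X)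
    (h : ∀ m, der hF h1 (Eu hF h1 ^ m) f = g m * f)
    (h0 : MvPowerSeries.constantCoeff f = 0) : f = 0 := by
  obtain ⟨b, hb⟩ := pow_basis hF h1 hi
  have hpd : ∀ (i : Fin (X.dim + 1)) (f : RR X),
      MvPowerSeries.pderiv (PowerSeries ℂ) i f =
        (frob hF h1).der (QA.bas (consts hF h1) i) f := by
    intro i f
    have h2 : (frob hF h1).der (QA.bas (consts hF h1) i) f =
        ∑ k, (QA.bas (consts hF h1) i : AA hF h1) k *
          MvPowerSeries.pderiv (PowerSeries ℂ) k f := rfl
    rw [h2, Finset.sum_eq_single i]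
    · rw [QA.bas_apply, if_pos rfl, one_mul]
    · intro k _ hk
      rw [QA.bas_apply, if_neg hk, zero_mul]
    · intro h; exact absurd (Finset.mem_univ i) h
  have hder : ∀ (x : AA hF h1) (f : RR X), (frob hF h1).der x f =
      ∑ k : Fin (X.dim + 1), b.repr x k * der hF h1 (Eu hF h1 ^ (k : ℕ)) f := by
    intro x f
    have h2 : (frob hF h1).der x f = derL (frob hF h1) f x := rfl
    rw [h2]
    conv_lhs => rw [← b.sum_repr x]
    rw [map_sum]
    refine Finset.sum_congr rfl fun k _ => ?_
    rw [map_smul, smul_eq_mul, hb]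
    rfl
  refine ode_zero (n := X.dim + 1) (K := PowerSeries ℂ) (N := 1) (fun _ => f) (fun _ => h0)
    (fun i _ _ => ∑ k : Fin (X.dim + 1), b.repr (QA.bas (consts hF h1) i) k * g k) ?_ 0
  intro i _
  rw [Finset.univ_unique, Finset.sum_singleton, hpd, hder, Finset.sum_mul]
  refine Finset.sum_congr rfl fun k _ => ?_
  rw [h, mul_assoc]

/-- **[G2, top, only `L_1`]** -/
theorem top_one (hi : index X ≠ 0) (N0 : ℕ) (V : ℕ → Ix X → RF X)
    (W : ℕ → X.Prim → Ix X → RF X) (a : ℕ → RF X)
    (hV : ∀ m i, ev0 (V m (Sum.inl i)) = (Eu hF h1 ^ m : AA hF h1) i)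
    (hV0 : ∀ m b, ev0 (V m (Sum.inr b)) = 0)
    (hV1 : ∀ m v b, ev0 (MvPowerSeries.pderiv (PowerSeries ℂ) (Sum.inr v) (V m (Sum.inr b))) =
      if v = b then rhoc hF h1 m v else 0)
    (hcl : ∀ m, ∑ b, V m b * MvPowerSeries.pderiv (PowerSeries ℂ) b (a 1) = a m)
    (hW : ∀ m v b, ev0 (W m v (Sum.inr b)) =
      if v = b then (lam hF h1 (Eu hF h1)) v ^ m else 0)
    (hX : ∀ n v, MvPowerSeries.pderiv (PowerSeries ℂ) (Sum.inr v : Ix X) (a n) =
      (n : RF X) * ∑ b, W (n - 1) v b * MvPowerSeries.pderiv (PowerSeries ℂ) b (a 1))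
    (h0 : ∀ n, ev0 (a n) = 0)
    (h3 : ∀ w : List X.Prim, w ≠ [] → w.length ≤ N0 →
      MvPowerSeries.constantCoeff (dP w (a 1)) = 0) (w : List X.Prim) (hw : w.length ≤ N0)
    (n : ℕ) : ev0 (dP w (a n)) = 0 := by
  refine all_zero_le a N0 ?_ w hw n
  intro w hw hvan n
  rcases w with _ | ⟨v, w'⟩
  · exact h0 n
  have hder : ∀ i : Ix X, IsDer (DD (A := PowerSeries ℂ) i) := fun i => isDer_DD i
  have hderv : ∀ v : X.Prim, IsDer (DD (A := PowerSeries ℂ) (Sum.inr v : Ix X)) :=
    fun v => hder (Sum.inr v)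
  set l := (lam hF h1 (Eu hF h1)) v with hl
  -- the leading terms are multiples of the one of `a 1`
  have key : ∀ n, ev0 (dl (fun v : X.Prim => DD (A := PowerSeries ℂ) (Sum.inr v : Ix X))
      (v :: w') (a n)) = (n : RR X) * l ^ (n - 1) *
      ev0 (dl (fun v : X.Prim => DD (A := PowerSeries ℂ) (Sum.inr v : Ix X)) (v :: w') (a 1)) := by
    intro n
    have hv1 : Van (fun v : X.Prim => DD (A := PowerSeries ℂ) (Sum.inr v : Ix X)) ev0
        (w'.length + 1) (a 1) := hvan 1
    have e0 : DD (A := PowerSeries ℂ) (Sum.inr v : Ix X) (a n) =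
        (n : RF X) * ∑ b, W (n - 1) v b * DD (A := PowerSeries ℂ) b (a 1) := hX n v
    have evan : ∀ b : Ix X, Van (fun v : X.Prim => DD (A := PowerSeries ℂ) (Sum.inr v : Ix X))
        ev0 w'.length (DD (A := PowerSeries ℂ) b (a 1)) := by
      intro b
      rcases b with i | b
      · intro u hu
        have hcomm : ∀ (u : List X.Prim) (f : RF X),
            dl (fun v : X.Prim => DD (A := PowerSeries ℂ) (Sum.inr v : Ix X)) u
              (DD (A := PowerSeries ℂ) (Sum.inl i : Ix X) f) =
            DD (A := PowerSeries ℂ) (Sum.inl i : Ix X)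
              (dl (fun v : X.Prim => DD (A := PowerSeries ℂ) (Sum.inr v : Ix X)) u f) := by
          intro u
          induction u with
          | nil => intro f; rfl
          | cons x u ih => intro f; rw [dl_cons, dl_cons, DD_comm, ih]
        rw [hcomm, ev0_DD, hv1 u (by omega), map_zero]
      · exact hv1.deriv b
    have hpad : ∀ i : Fin (X.dim + 1),
        ev0 (dl (fun v : X.Prim => DD (A := PowerSeries ℂ) (Sum.inr v : Ix X)) w'
          (DD (A := PowerSeries ℂ) (Sum.inl i : Ix X) (a 1))) = 0 := by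
      intro i
      have hcomm : ∀ (u : List X.Prim) (f : RF X),
          dl (fun v : X.Prim => DD (A := PowerSeries ℂ) (Sum.inr v : Ix X)) u
            (DD (A := PowerSeries ℂ) (Sum.inl i : Ix X) f) =
          DD (A := PowerSeries ℂ) (Sum.inl i : Ix X)
            (dl (fun v : X.Prim => DD (A := PowerSeries ℂ) (Sum.inr v : Ix X)) u f) := by
        intro u
        induction u with
        | nil => intro f; rfl
        | cons x u ih => intro f; rw [dl_cons, dl_cons, DD_comm, ih]
      rw [hcomm, ev0_DD, hv1 w' (Nat.lt_succ_self _), map_zero]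
    have e1 : ev0 (dl (fun v : X.Prim => DD (A := PowerSeries ℂ) (Sum.inr v : Ix X)) w'
        (∑ b, W (n - 1) v b * DD (A := PowerSeries ℂ) b (a 1))) = l ^ (n - 1) *
        ev0 (dl (fun v : X.Prim => DD (A := PowerSeries ℂ) (Sum.inr v : Ix X)) (v :: w')
          (a 1)) := by
      rw [dl_sum hderv, map_sum]
      have e2 : ∀ b : Ix X, ev0 (dl (fun v : X.Prim => DD (A := PowerSeries ℂ)
          (Sum.inr v : Ix X)) w' (W (n - 1) v b * DD (A := PowerSeries ℂ) b (a 1))) =
          ev0 (W (n - 1) v b) * ev0 (dl (fun v : X.Prim => DD (A := PowerSeries ℂ)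
            (Sum.inr v : Ix X)) w' (DD (A := PowerSeries ℂ) b (a 1))) := fun b =>
        dl_mul_of_van hderv (evan b) _ w' le_rfl
      rw [Finset.sum_congr rfl fun b _ => e2 b, Fintype.sum_sum_type,
        Finset.sum_eq_zero fun i _ => by rw [hpad i, mul_zero], zero_add,
        Finset.sum_eq_single v]
      · rw [hW, if_pos rfl]
        rfl
      · intro b _ hb
        rw [hW, if_neg (Ne.symm hb), zero_mul]
      · intro h; exact absurd (Finset.mem_univ v) h
    have e3 : ev0 (dl (fun v : X.Prim => DD (A := PowerSeries ℂ) (Sum.inr v : Ix X)) w'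
        ((n : RF X) * ∑ b, W (n - 1) v b * DD (A := PowerSeries ℂ) b (a 1))) = (n : RR X) *
        ev0 (dl (fun v : X.Prim => DD (A := PowerSeries ℂ) (Sum.inr v : Ix X)) w'
          (∑ b, W (n - 1) v b * DD (A := PowerSeries ℂ) b (a 1))) := by
      have h := congrArg ev0 (dP_nat w' n
        (∑ b, W (n - 1) v b * DD (A := PowerSeries ℂ) b (a 1)))
      rw [map_mul, map_natCast] at h
      exact h
    rw [dl_cons, e0, e3, e1, mul_assoc]
  have hone : ev0 (dl (fun v : X.Prim => DD (A := PowerSeries ℂ) (Sum.inr v : Ix X))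
      (v :: w') (a 1)) = 0 := by
    refine one_zero hF h1 hi _ (fun m => (m : RR X) * l ^ (m - 1) -
      ((v :: w').map fun v => rhoc hF h1 m v).sum) ?_ ?_
    · intro m
      have e1 := dl_field_ev0 (V m) (fun v => rhoc hF h1 m v) (hV0 m) (hV1 m) (a 1) (v :: w')
        (hvan 1)
      have hcl' : ∑ i, V m i * MvPowerSeries.pderiv (PowerSeries ℂ) i (a 1) = a m := hcl m
      rw [hcl', key m] at e1
      have e2 : der hF h1 (Eu hF h1 ^ m) (ev0 (dl (fun v : X.Prim => DD (A := PowerSeries ℂ)
          (Sum.inr v : Ix X)) (v :: w') (a 1))) = ∑ i, ev0 (V m (Sum.inl i)) *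
          MvPowerSeries.pderiv (PowerSeries ℂ) i (ev0 (dl (fun v : X.Prim =>
            DD (A := PowerSeries ℂ) (Sum.inr v : Ix X)) (v :: w') (a 1))) := by
        rw [der]
        exact Finset.sum_congr rfl fun i _ => by rw [hV]
      rw [e2, sub_mul, e1]
      ring
    · rw [constantCoeff_ev0]
      exact h3 (v :: w') (by simp) hw
  rw [key n, hone, mul_zero]

end Vale.Agent.P269.G2.H984
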