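import Vale.Agent.P269.G2.H984.SmallLe
import Vale.Agent.P269.G2.H984.TopOne

/-!
# [G2] the small phase space: only `L_1` with primitive insertions is an obstruction
-/

set_option autoImplicit false

namespace Vale.Agent.P269.G2.H984

open Vale.Agent.P269.CI Vale.Agent.P269.G2
open Vale.Agent.P269.G1 (RR ser cst lamc Eu lam AA cq)
open Vale.Agent.P269.G2.H333 (ev0 isDer_DD)

variable {X : CompleteIntersection} {F : ℕ → ℕ → List (Ins X) → ℂ}

/-- the primitive part of the product of a power of the Euler field and a primitive class -/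
theorem ev0_pow_mul (hF : IsGW X F) (he : Even X.dim) (h1 : IsGenusOne F) (m : ℕ)
    (v b : X.Prim) : ev0 (phi X ((EM hF he ^ m * QA.bas (consts hF he) (Sum.inr v) : AM hF he)
      (Sum.inr b))) = if v = b then (lam hF h1 (Eu hF h1)) v ^ m else 0 := by
  have e1 : (EM hF he ^ m * QA.bas (consts hF he) (Sum.inr v) : AM hF he) (Sum.inr b) =
      ∑ i, (EM hF he ^ m : AM hF he) i * qc F i (Sum.inr v) (Sum.inr b) := by
    rw [QA.mul_def]
    refine Finset.sum_congr rfl fun i _ => ?_
    rw [Finset.sum_eq_single (Sum.inr v : Ix X)]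
    · rw [QA.bas_apply, if_pos rfl, mul_one]
      rfl
    · intro j _ hj
      rw [QA.bas_apply, if_neg hj, mul_zero, zero_mul]
    · intro h; exact absurd (Finset.mem_univ _) h
  rw [e1, map_sum, map_sum, Fintype.sum_sum_type]
  have e2 : ∀ u : X.Prim, ev0 (phi X ((EM hF he ^ m : AM hF he) (Sum.inr u) *
      qc F (Sum.inr u) (Sum.inr v) (Sum.inr b))) = 0 := by
    intro u
    rw [map_mul, map_mul, ev0_pow_inr hF he h1, zero_mul]
  have e3 : ∀ i : Fin (X.dim + 1), ev0 (phi X ((EM hF he ^ m : AM hF he) (Sum.inl i) *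
      qc F (Sum.inl i) (Sum.inr v) (Sum.inr b))) =
      (Eu hF h1 ^ m : AA hF h1) i * (if v = b then lamc h1 i else 0) := by
    intro i
    rw [map_mul, map_mul, ev0_pow_inl hF he h1, ev0_qc_two hF he h1]
  rw [Finset.sum_congr rfl fun i _ => e3 i, Finset.sum_eq_zero fun u _ => e2 u, add_zero]
  by_cases h : v = b
  · rw [if_pos h]
    have e4 : (lam hF h1 (Eu hF h1)) v ^ m = (lam hF h1 (Eu hF h1 ^ m)) v := by
      rw [map_pow]
      rfl
    rw [e4]
    change _ = ∑ i, (Eu hF h1 ^ m : AA hF h1) i * lamc h1 i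
    exact Finset.sum_congr rfl fun i _ => by rw [if_pos h]
  · rw [if_neg h]
    exact Finset.sum_eq_zero fun i _ => by rw [if_neg h, mul_zero]

theorem der_bas (hF : IsGW X F) (he : Even X.dim) (b : Ix X) (f : RM X) :
    (frob hF he).der (QA.bas (consts hF he) b) f = pd b f := by
  change ∑ c, (QA.bas (consts hF he) b : AM hF he) c * pd c f = pd b f
  rw [Finset.sum_eq_single b]
  · rw [QA.bas_apply, if_pos rfl, one_mul]
  · intro c _ hc
    rw [QA.bas_apply, if_neg hc, zero_mul]
  · intro h; exact absurd (Finset.mem_univ _) h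

/-- the constraints on the full small phase space with at most `N0` primitive insertions follow
from the ambient ones and from `L_1` at the origin with purely primitive insertions -/
theorem virasoro_small_one_of (hF : IsGW X F) (he : Even X.dim) (h1 : IsGenusOneFull F)
    (hX : 3 ≤ X.dim) (hi : index X ≠ 0)
    (hY : ∀ (Y : AM hF he) (n : ℕ), (frob hF he).der Y (aM hF he n) =
      (n : RM X) * (frob hF he).der (EM hF he ^ (n - 1) * Y) (aM hF he 1))
    (h0 : ∀ k d (L : List (Fin (X.dim + 1))), virasoro X F (k + 1) 1 d (L.map (hpow X)) = 0)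
    (N0 : ℕ) (h3 : ∀ w : List X.Prim, w ≠ [] → w.length ≤ N0 → ∀ d : ℕ,
      virasoro X F 2 1 d (w.map fun v => (Sum.inr v, 0)) = 0)
    (k d : ℕ) (L : List (Ix X)) (hL : (L.countP fun a => a.isRight) ≤ N0) :
    virasoro X F (k + 1) 1 d (L.map fun a => (a, 0)) = 0 := by
  have h1' := h1.toOne
  have main : ∀ (w : List X.Prim), w.length ≤ N0 → ∀ n,
      ev0 (dP w (phi X (aM hF he n))) = 0 := by
    refine top_one hF h1' hi N0
      (fun m b => phi X ((EM hF he ^ m : AM hF he) b))
      (fun m v b => phi X ((EM hF he ^ m * QA.bas (consts hF he) (Sum.inr v) : AM hF he) b))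
      (fun n => phi X (aM hF he n))
      (fun m i => ev0_pow_inl hF he h1' m i) (fun m b => ev0_pow_inr hF he h1' m b)
      (fun m v b => ev0_pd_pow hF he h1' m v b) ?_
      (fun m v b => ev0_pow_mul hF he h1' m v b) ?_ ?_ ?_
    · intro m
      have h := congrArg (phi X) (aM_closure hF he h1 hX m 1)
      rw [map_sum, map_mul, map_natCast, Nat.cast_one, one_mul, Nat.add_sub_cancel] at h
      rw [← h]
      refine Finset.sum_congr rfl fun b _ => ?_
      rw [map_mul, phi_pd]
    · intro n v
      have h := congrArg (phi X) (hY (QA.bas (consts hF he) (Sum.inr v)) n)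
      rw [der_bas, phi_pd, map_mul, map_natCast] at h
      rw [h]
      congr 1
      change phi X (∑ b, (EM hF he ^ (n - 1) * QA.bas (consts hF he) (Sum.inr v) : AM hF he) b *
        pd b (aM hF he 1)) = _
      rw [map_sum]
      refine Finset.sum_congr rfl fun b _ => ?_
      rw [map_mul, phi_pd]
    · exact ev0_aM hF he h1 hX h0
    · intro w hw0 hwN
      exact origin_aM hF he h1 hX 1 w fun d => h3 w hw0 hwN d
  refine list_zero (fun d L => virasoro X F (k + 1) 1 d L) (symF_vir (E0 X) hF he k) N0 ?_ d L hL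
  intro w hw
  have h := congrArg ev0 (dP_vir hF he h1 hX k w)
  rw [map_add, map_mul, map_mul, map_natCast, map_natCast, map_zero, main w hw k, mul_zero,
    zero_add] at h
  exact natCast_cancel 2 two_ne_zero _ h

/-- the same, the numbers `L_1` being excluded by the dimension and the parity -/
theorem virasoro_small_one_le (hF : IsGW X F) (he : Even X.dim) (h1 : IsGenusOneFull F)
    (hX : 3 ≤ X.dim) (hi : index X ≠ 0)
    (hY : ∀ (Y : AM hF he) (n : ℕ), (frob hF he).der Y (aM hF he n) =
      (n : RM X) * (frob hF he).der (EM hF he ^ (n - 1) * Y) (aM hF he 1))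
    (h0 : ∀ k d (L : List (Fin (X.dim + 1))), virasoro X F (k + 1) 1 d (L.map (hpow X)) = 0)
    (N0 : ℕ) (hN : ∀ N d : ℕ, 1 ≤ N → N ≤ N0 → (3 ≤ excess X → N % 2 = 0) →
      2 * (index X * d) ≠ 2 + N * ((X.dim : ℤ) - 2))
    (k d : ℕ) (L : List (Ix X)) (hL : (L.countP fun a => a.isRight) ≤ N0) :
    virasoro X F (k + 1) 1 d (L.map fun a => (a, 0)) = 0 := by
  refine virasoro_small_one_of hF he h1 hX hi hY h0 N0 (fun w hw0 hwN d => ?_) k d L hL
  by_cases hodd : 3 ≤ excess X ∧ w.length % 2 = 1
  · exact vir_odd h1 hodd.1 1 d w hodd.2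
  · refine vir_weight hF 1 d w ?_
    have h4 := hN w.length d (List.length_pos_iff.2 hw0) hwN fun h3 => by
      by_contra hcon
      exact hodd ⟨h3, by omega⟩
    push_cast
    exact h4

end Vale.Agent.P269.G2.H984
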