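import Vale.Agent.P269.G2.CSpec
import Vale.Agent.P269.G2.H984.CubicTop

/-!
# [G2, J6] even-dimensional cubic hypersurfaces, arbitrary insertions
-/

set_option autoImplicit false

namespace Vale.Agent.P269.G2.H984

open Vale.Agent.P269.CI Vale.Agent.P269.G2

variable {X : CompleteIntersection} {F : ℕ → ℕ → List (Ins X) → ℂ}

theorem index_cubic (hX : 4 ≤ X.dim) (hd : X.degs = [3]) : index X ≠ 0 := by
  have h := Vale.Agent.P269.G1.index_eq X
  have h2 : excess X = 2 := by
    simp [excess, hd]
  omega

/-- **[J6]** all genus-one constraints, arbitrary insertions -/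
theorem virasoro_cubic (hF : IsGW X F) (he : Even X.dim) (h1 : IsGenusOneFull F)
    (hX : 4 ≤ X.dim) (hd : X.degs = [3]) (hc : IsCubic F)
    (h0 : ∀ k d (L : List (Fin (X.dim + 1))), virasoro X F (k + 1) 1 d (L.map (hpow X)) = 0)
    (K d : ℕ) (L : List (Ins X)) : virasoro X F K 1 d L = 0 := by
  cases K with
  | zero => exact H597.virasoro_zero hF 1 d L
  | succ k =>
    refine vir_descend hF he h1.trr1 (h1.mono1 0) k (L.countP fun x => x.1.isRight) ?_ d L le_rfl
    intro d L' hL'
    exact virasoro_small_rel hF he h1 (by omega) (index_cubic hX hd) h0 _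
      (fun w hw _ h => cubic_origin hF he h1 hX hd hc w hw h) k d L' hL'

end Vale.Agent.P269.G2.H984
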