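import Vale.Agent.P269.G2.H984.SmallOneX
import Vale.Agent.P269.G1.H984.DeZeroOf

/-!
# [G2] the improved final theorem: body of the hand-in
-/

set_option autoImplicit false

namespace Vale.Agent.P269.G2.H984

open Vale.Agent.P269.CI Vale.Agent.P269.G2

theorem final_one (X : CompleteIntersection) (he : Even X.dim) (hX : 3 ≤ X.dim)
    (hi : 2 ≤ index X) (hm : 2 ≤ excess X) (F : ℕ → ℕ → List (Ins X) → ℂ) (hF : IsGW X F)
    (h1 : IsGenusOneFull F) :
    (3 ≤ excess X → 2 * excess X ≤ X.dim + 2 →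
      (Odd (excess X) → ∀ (K d : ℕ) (L : List (Ins X)), virasoro X F K 1 d L = 0) ∧
      ∀ (K d : ℕ) (L : List (Ins X)),
        (∀ n : ℕ, 1 ≤ n → 2 * n ≤ (L.countP fun x => x.1.isRight) →
          ¬ index X ∣ 1 + (n : ℤ) * ((excess X : ℤ) - 3)) →
        virasoro X F K 1 d L = 0) ∧
    (∀ N0 : ℕ,
      (∀ k d : ℕ, 1 ≤ d → index X * d = k → k + 2 ≤ excess X →
        virasoro X F (k + 1) 1 d [] = 0) →
      (∀ w : List X.Prim, w ≠ [] → w.length ≤ N0 → ∀ d : ℕ,
        virasoro X F 2 1 d (w.map fun v => (Sum.inr v, 0)) = 0) →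
      ∀ (K d : ℕ) (L : List (Ins X)), (L.countP fun x => x.1.isRight) ≤ N0 →
        virasoro X F K 1 d L = 0) := by
  refine ⟨fun h3 hr => ?_, ?_⟩
  · have hid := Vale.Agent.P269.G1.index_eq X
    have h0 : ∀ k d (L : List (Fin (X.dim + 1))),
        virasoro X F (k + 1) 1 d (L.map (hpow X)) = 0 := by
      refine fun k d L =>
        Vale.Agent.P269.G1.H984.virasoro_small_of hF h1.toOne hX (by omega) hi ?_ k d L
      intro k d hd hk hk2
      exfalso
      have h4 : (index X : ℤ) ≤ k := by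
        rw [← hk]
        have : (1 : ℤ) ≤ d := by exact_mod_cast hd
        nlinarith
      omega
    have main : ∀ (K d : ℕ) (L : List (Ins X)),
        (∀ n : ℕ, 1 ≤ n → 2 * n ≤ (L.countP fun x => x.1.isRight) →
          ¬ index X ∣ 1 + (n : ℤ) * ((excess X : ℤ) - 3)) →
        virasoro X F K 1 d L = 0 := by
      intro K d L hL
      cases K with
      | zero => exact Vale.Agent.P269.H597.virasoro_zero hF 1 d L
      | succ k =>
        exact Vale.Agent.P269.G2.vir_descend hF he h1.trr1 (h1.mono1 0) k _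
          (virasoro_small_dvd hF he h1 hX h3 hr h0 _ hL k) d L le_rfl
    refine ⟨fun hodd K d L => main K d L fun n _ _ hdvd => ?_, main⟩
    obtain ⟨a, ha⟩ := hodd
    obtain ⟨b, hb⟩ := he
    obtain ⟨c, hc⟩ := hdvd
    have e1 : index X = 2 * ((b : ℤ) - a) := by omega
    have e2 : (excess X : ℤ) - 3 = 2 * ((a : ℤ) - 1) := by omega
    rw [e1, e2] at hc
    have e3 : (1 : ℤ) = 2 * (((b : ℤ) - a) * c - n * ((a : ℤ) - 1)) := by linarith
    omega
  · intro N0 hz h3 K d L hL
    have h0 : ∀ k d (L : List (Fin (X.dim + 1))),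
        virasoro X F (k + 1) 1 d (L.map (hpow X)) = 0 := fun k d L =>
      Vale.Agent.P269.G1.H984.virasoro_small_of hF h1.toOne hX (by omega) hi hz k d L
    cases K with
    | zero => exact Vale.Agent.P269.H597.virasoro_zero hF 1 d L
    | succ k =>
      exact Vale.Agent.P269.G2.vir_descend hF he h1.trr1 (h1.mono1 0) k N0
        (virasoro_small_one hF he h1 hX (by omega) h0 N0 h3 k) d L hL

end Vale.Agent.P269.G2.H984
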