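import Vale.Agent.P269.G2.H984.SmallOne
import Vale.Agent.P269.G2.H861.KeyX

/-!
# [G2] the small phase space: only `L_1` with primitive insertions is an obstruction
-/

set_option autoImplicit false

namespace Vale.Agent.P269.G2.H984

open Vale.Agent.P269.CI Vale.Agent.P269.G2
open Vale.Agent.P269.G1 (RR ser cst lamc Eu lam AA cq)
open Vale.Agent.P269.G2.H333 (ev0 isDer_DD)

variable {X : CompleteIntersection} {F : ℕ → ℕ → List (Ins X) → ℂ}

theorem aM_one (hF : IsGW X F) (he : Even X.dim) (h1 : IsGenusOneFull F) (hX : 3 ≤ X.dim) :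
    aM hF he 1 = (frob hF he).de 2 := by
  have h := aM_key hF he h1 hX 1
  refine sub_eq_zero.1 (natCast_cancel 2 two_ne_zero _ ?_)
  rw [mul_sub]
  exact sub_eq_zero.2 h

/-- the derivative of `a_n` along any vector field -/
theorem aM_der (hF : IsGW X F) (he : Even X.dim) (h1 : IsGenusOneFull F) (hX : 3 ≤ X.dim)
    (Y : AM hF he) (n : ℕ) : (frob hF he).der Y (aM hF he n) =
      (n : RM X) * (frob hF he).der (EM hF he ^ (n - 1) * Y) (aM hF he 1) := by
  rw [aM_one hF he h1 hX]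
  exact H861.der_a (frob hF he) (frob_getzler hF he h1) (frob_de_one hF he hX) n Y

/-- the constraints with at most `N0` primitive insertions follow from the ambient ones and from
`L_1` at the origin with purely primitive insertions -/
theorem virasoro_small_one (hF : IsGW X F) (he : Even X.dim) (h1 : IsGenusOneFull F)
    (hX : 3 ≤ X.dim) (hi : index X ≠ 0)
    (h0 : ∀ k d (L : List (Fin (X.dim + 1))), virasoro X F (k + 1) 1 d (L.map (hpow X)) = 0)
    (N0 : ℕ) (h3 : ∀ w : List X.Prim, w ≠ [] → w.length ≤ N0 → ∀ d : ℕ,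
      virasoro X F 2 1 d (w.map fun v => (Sum.inr v, 0)) = 0)
    (k d : ℕ) (L : List (Ix X)) (hL : (L.countP fun a => a.isRight) ≤ N0) :
    virasoro X F (k + 1) 1 d (L.map fun a => (a, 0)) = 0 :=
  virasoro_small_one_of hF he h1 hX hi (aM_der hF he h1 hX) h0 N0 h3 k d L hL

/-- the same, the numbers `L_1` being excluded by the dimension and the parity -/
theorem virasoro_small_one_wt (hF : IsGW X F) (he : Even X.dim) (h1 : IsGenusOneFull F)
    (hX : 3 ≤ X.dim) (hi : index X ≠ 0)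
    (h0 : ∀ k d (L : List (Fin (X.dim + 1))), virasoro X F (k + 1) 1 d (L.map (hpow X)) = 0)
    (N0 : ℕ) (hN : ∀ N d : ℕ, 1 ≤ N → N ≤ N0 → (3 ≤ excess X → N % 2 = 0) →
      2 * (index X * d) ≠ 2 + N * ((X.dim : ℤ) - 2))
    (k d : ℕ) (L : List (Ix X)) (hL : (L.countP fun a => a.isRight) ≤ N0) :
    virasoro X F (k + 1) 1 d (L.map fun a => (a, 0)) = 0 :=
  virasoro_small_one_le hF he h1 hX hi (aM_der hF he h1 hX) h0 N0 hN k d L hL

/-- arithmetic of the weights -/
theorem wt_one {m ν r N d : ℤ} (hr : r = ν + m - 1) (hN : N % 2 = 0)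
    (h : ¬ ν ∣ 1 + N / 2 * (m - 3)) : 2 * (ν * d) ≠ 2 + N * (r - 2) := by
  intro h2
  obtain ⟨n, rfl⟩ : ∃ n, N = 2 * n := ⟨N / 2, by omega⟩
  refine h ⟨d - n, ?_⟩
  have e : 2 * n / 2 = n := by omega
  rw [e, hr] at *
  linarith

/-- all the constraints of the small phase space, for `3 ≤ m` and `2 m ≤ r + 2` -/
theorem virasoro_small_dvd (hF : IsGW X F) (he : Even X.dim) (h1 : IsGenusOneFull F)
    (hX : 3 ≤ X.dim) (hm : 3 ≤ excess X) (hr : 2 * excess X ≤ X.dim + 2)
    (h0 : ∀ k d (L : List (Fin (X.dim + 1))), virasoro X F (k + 1) 1 d (L.map (hpow X)) = 0)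
    (N0 : ℕ) (hN : ∀ n : ℕ, 1 ≤ n → 2 * n ≤ N0 →
      ¬ index X ∣ 1 + (n : ℤ) * ((excess X : ℤ) - 3))
    (k d : ℕ) (L : List (Ix X)) (hL : (L.countP fun a => a.isRight) ≤ N0) :
    virasoro X F (k + 1) 1 d (L.map fun a => (a, 0)) = 0 := by
  have hid := Vale.Agent.P269.G1.index_eq X
  refine virasoro_small_one_wt hF he h1 hX (by omega) h0 N0 (fun N d h2 h3 h4 => ?_) k d L hL
  refine wt_one (m := (excess X : ℤ)) (by omega) (by have := h4 hm; omega) ?_
  have h5 := hN (N / 2) (by have := h4 hm; omega) (by omega)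
  push_cast at h5
  exact h5

end Vale.Agent.P269.G2.H984
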